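import Vale.Agent.P067.H610.Main

set_option autoImplicit false

open Filter

namespace Vale.Agent.Results.P067.EveryOrder

open Vale.Agent.P067

/-- (1) For every `d ≥ 1` there are `D`, `ε > 0` and finite connected pure `d`-dimensional
simplicial complexes `X m`, with numbers of vertices tending to infinity, each of degree at most `D`
and each an `ε`-coboundary expander. (2) For every `d ≥ 1` and every finite simplicial complex `K`
of dimension at most `d` (with vertex set `U`) there are `D` and `ε, c > 0` such that for every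
`n ≥ |U| + d + 1` there is a connected pure `d`-dimensional simplicial complex `X` with exactly `n`
vertices, of degree at most `D`, which is an `ε`-coboundary expander and contains at least `c * n`
pairwise disjoint induced copies of `K`. -/
theorem result :
    (∀ d : ℕ, 1 ≤ d → ∃ (D : ℕ) (ε : ℝ), 0 < ε ∧ ∃ (V : ℕ → Type) (_ : ∀ m, Fintype (V m))
      (X : ∀ m, AbstractSimplicialComplex (V m)),
      Tendsto (fun m => Fintype.card (V m)) atTop atTop ∧
      ∀ m, IsPure (X m) d ∧ (skel (X m)).Connected ∧ degree (X m) d ≤ D ∧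
        IsCoboundaryExpander (X m) d ε) ∧
    ∀ d : ℕ, 1 ≤ d → ∀ (U : Type) [Fintype U] (K : AbstractSimplicialComplex U),
      (∀ s ∈ K, s.card ≤ d + 1) →
      ∃ (D : ℕ) (ε c : ℝ), 0 < ε ∧ 0 < c ∧ ∀ n : ℕ, Fintype.card U + d + 1 ≤ n →
        ∃ (V : Type) (_ : Fintype V) (X : AbstractSimplicialComplex V),
          Fintype.card V = n ∧ IsPure X d ∧ (skel X).Connected ∧ degree X d ≤ D ∧
          IsCoboundaryExpander X d ε ∧
          ∃ (k : ℕ) (j : Fin k → U ↪ V), c * n ≤ k ∧
            (Pairwise fun i i' => Disjoint (Set.range (j i)) (Set.range (j i'))) ∧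
            ∀ i, ∀ s : Finset U, s.map (j i) ∈ X ↔ s ∈ K :=
  ⟨main_of_strong, H610.every_order⟩

end Vale.Agent.Results.P067.EveryOrder
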