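import Vale.Agent.P067.H301.Main

set_option autoImplicit false

open Filter

namespace Vale.Agent.Results.P067.LocallyExpandingCoboundary

open Vale.Agent.P067

attribute [local instance] Classical.propDecidable

/-- (1) For every `d ≥ 1` there are `D`, `ε > 0` and finite connected pure `d`-dimensional
simplicial complexes `X m`, with numbers of vertices tending to infinity, each of degree at most `D`
and each an `ε`-coboundary expander. (2) For every `N ≥ 2` there is `β > 0` such that for every
`lam > 0` there are `D`, `C`, `ε > 0` and pure homogeneous `N`-dimensional complexes `Y m` of degree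
at most `D`, with more than `m` and at most `C * (m + 1)` vertices, such that `Y m` and the links of
its faces are `lam`-spectral expanders, these links are `β`-coboundary expanders, the `(N - 1)`-skeleton of
`Y m` is an `ε`-cosystolic expander, and for `1 ≤ d ≤ N / 2` the `d`-skeleton of `Y m` is pure and
connected and, like its links, an `ε`-coboundary expander. -/
theorem result :
    (∀ d : ℕ, 1 ≤ d → ∃ (D : ℕ) (ε : ℝ), 0 < ε ∧ ∃ (V : ℕ → Type) (_ : ∀ m, Fintype (V m))
      (X : ∀ m, AbstractSimplicialComplex (V m)),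
      Tendsto (fun m => Fintype.card (V m)) atTop atTop ∧
      ∀ m, IsPure (X m) d ∧ (skel (X m)).Connected ∧ degree (X m) d ≤ D ∧
        IsCoboundaryExpander (X m) d ε) ∧
    ∀ N : ℕ, 2 ≤ N → ∃ β : ℝ, 0 < β ∧ ∀ lam : ℝ, 0 < lam →
      ∃ (D C : ℕ) (ε : ℝ), 0 < ε ∧ ∃ (V : ℕ → Type) (_ : ∀ m, Fintype (V m))
        (Y : ∀ m, AbstractSimplicialComplex (V m)), ∀ m,
          (m < Fintype.card (V m) ∧ Fintype.card (V m) ≤ C * (m + 1)) ∧
          IsPure (Y m) N ∧ degree (Y m) N ≤ D ∧ IsHomogeneous (Y m) N ∧
          IsSpectralExpander (Y m) N lam ∧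
          (∀ σ ∈ Y m, σ.card < N → IsSpectralExpander (link (Y m) σ) (N - σ.card) lam ∧
            IsCoboundaryExpander (link (Y m) σ) (N - σ.card) β) ∧
          IsCosystolicExpander (skeleton (Y m) (N - 1)) (N - 1) ε ∧
          ∀ d : ℕ, 1 ≤ d → 2 * d ≤ N →
            IsPure (skeleton (Y m) d) d ∧ (skel (skeleton (Y m) d)).Connected ∧
            degree (skeleton (Y m) d) d ≤ D ∧ IsCoboundaryExpander (skeleton (Y m) d) d ε ∧
            ∀ σ ∈ skeleton (Y m) d, σ.card < d →
              IsCoboundaryExpander (link (skeleton (Y m) d) σ) (d - σ.card) ε :=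
  ⟨main_of_strong, strong⟩

end Vale.Agent.Results.P067.LocallyExpandingCoboundary
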